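import Mathlib

/-!
P043, dimension two: systems of translational equations on `ℤ × ℝ` with arcs as pieces.
-/

namespace Vale.Agent.P043.R2

/-- A piece: a shift in `ℤ` and an interval. -/
structure Pc where
  k : ℤ
  lo : ℝ
  hi : ℝ

/-- Points of the base. -/
abbrev P2 : Type := ℤ × ℝ

/-- The translate of the piece `p` by `a` contains `x`. -/
def Hits (x : P2) (p : Pc) (a : P2) : Prop :=
  a.1 + p.k = x.1 ∧ a.2 + p.lo ≤ x.2 ∧ x.2 < a.2 + p.hi

/-- `A` solves the equation with pieces `P`. -/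
def Sol (P : List Pc) (A : Set P2) : Prop :=
  ∀ x, ∃! q : Pc × P2, q.1 ∈ P ∧ q.2 ∈ A ∧ Hits x q.1 q.2

/-- The requirements of the lifting: pieces lie in `[0, H]`, pieces of one equation at one shift
are disjoint, those of the first equation meet every height in `[0, H)`, and those of the equation
`l₁` start above height `0`. -/
def Fits {L : ℕ} [NeZero L] (E : Fin L → List Pc) (l₁ : Fin L) (H : ℝ) : Prop :=
  (∀ l, ∀ p ∈ E l, 0 ≤ p.lo ∧ p.lo < p.hi ∧ p.hi ≤ H) ∧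
  (∀ l, ∀ p ∈ E l, ∀ q ∈ E l, p ≠ q → p.k = q.k → p.hi ≤ q.lo ∨ q.hi ≤ p.lo) ∧
  (∀ z : ℝ, 0 ≤ z → z < H → ∃ p ∈ E 0, p.lo ≤ z ∧ z < p.hi) ∧
  ∀ p ∈ E l₁, 0 < p.lo

end Vale.Agent.P043.R2
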