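import Mathlib

/-!
P043, dimension two: typed dented segments of the line.

The segment of type `τ : ZMod L` has a hole whose length encodes `τ`; it is filled only by the bump
of a segment of type `τ - 1` on its left.  So every exact tiling is a grid whose types increase by
one.
-/

namespace Vale.Agent.P043.R2

variable (L : ℕ)

/-- length unit of the segment -/
def sz : ℝ := (L : ℝ) + 1

/-- length of the segment -/
def wid : ℝ := 10 * sz L

/-- the hole -/
def Hole (τ : ZMod L) (y : ℝ) : Prop := 4 * sz L ≤ y ∧ y < 4 * sz L + ((τ.val : ℝ) + 1)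

/-- the segment without its hole -/
def Core (τ : ZMod L) (y : ℝ) : Prop := (0 ≤ y ∧ y < wid L) ∧ ¬ Hole L τ y

/-- the typed segment -/
def Seg (τ : ZMod L) (y : ℝ) : Prop := Core L τ y ∨ Hole L (τ + 1) (y - wid L)

lemma sz_ge : 1 ≤ sz L := by unfold sz; linarith [Nat.cast_nonneg (α := ℝ) L]

lemma wid_pos : 0 < wid L := by unfold wid; linarith [sz_ge L]

variable [NeZero L]

lemma hole_range {τ : ZMod L} {y : ℝ} (h : Hole L τ y) : 4 * sz L ≤ y ∧ y < 5 * sz L := by
  obtain ⟨h1, h2⟩ := h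
  have : (τ.val : ℝ) + 1 ≤ (L : ℝ) := by exact_mod_cast τ.val_lt
  simp only [sz] at *
  exact ⟨h1, by linarith⟩

lemma core_of_out {τ : ZMod L} {y : ℝ} (h1 : 0 ≤ y ∧ y < wid L)
    (h : y < 4 * sz L ∨ 5 * sz L ≤ y) : Core L τ y :=
  ⟨h1, fun hh => by rcases h with h | h <;> linarith [(hole_range L hh).1, (hole_range L hh).2]⟩

lemma seg_bound {τ : ZMod L} {y : ℝ} (h : Seg L τ y) : 0 ≤ y ∧ y ≤ 2 * wid L := by
  have := sz_ge L
  rcases h with ⟨⟨a, b⟩, -⟩ | h
  · unfold wid at *; exact ⟨a, by linarith⟩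
  · obtain ⟨a, b⟩ := hole_range L h
    unfold wid at *; constructor <;> linarith

/-- the typed segments at the positions in `P` cover every point of the line exactly once -/
def ExactSeg (P : Set (ℝ × ZMod L)) : Prop := ∀ y, ∃! q, q ∈ P ∧ Seg L q.2 (y - q.1)

variable {L} {P : Set (ℝ × ZMod L)} (hP : ExactSeg L P)

include hP in
lemma seg_near {q r : ℝ × ZMod L} (hq : q ∈ P) (hr : r ∈ P) (h : |r.1 - q.1| < wid L) :
    q = r := by
  obtain ⟨a1, b1⟩ := abs_lt.1 h
  have hs := sz_ge L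
  have hw : wid L = 10 * sz L := rfl
  set v := r.1 - q.1 with hv
  obtain ⟨x, hx, hx', ho, ho'⟩ : ∃ x, (0 ≤ x ∧ x < wid L) ∧ (0 ≤ x - v ∧ x - v < wid L) ∧
      (x < 4 * sz L ∨ 5 * sz L ≤ x) ∧ (x - v < 4 * sz L ∨ 5 * sz L ≤ x - v) := by
    rcases le_total 0 v with hv0 | hv0
    · by_cases hm : 4 * sz L ≤ v ∧ v < 5 * sz L
      · exact ⟨5 * sz L, ⟨by linarith, by linarith⟩, ⟨by linarith, by linarith⟩, Or.inr le_rfl,
          Or.inl (by linarith)⟩
      · refine ⟨v, ⟨hv0, b1⟩, ⟨by linarith, by linarith⟩, ?_, Or.inl (by linarith)⟩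
        rcases not_and_or.1 hm with h | h <;> push Not at h
        · exact Or.inl h
        · exact Or.inr h
    · by_cases hm : 4 * sz L ≤ -v ∧ -v < 5 * sz L
      · exact ⟨5 * sz L + v, ⟨by linarith, by linarith⟩, ⟨by linarith, by linarith⟩,
          Or.inl (by linarith), Or.inr (by linarith)⟩
      · refine ⟨0, ⟨le_rfl, wid_pos L⟩, ⟨by linarith, by linarith⟩, Or.inl (by linarith), ?_⟩
        rcases not_and_or.1 hm with h | h <;> push Not at h
        · exact Or.inl (by linarith)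
        · exact Or.inr (by linarith)
  refine (hP (q.1 + x)).unique ⟨hq, Or.inl (core_of_out L ?_ ?_)⟩
    ⟨hr, Or.inl (core_of_out L ?_ ?_)⟩
  · simpa using hx
  · simpa using ho
  · constructor <;> linarith [hx'.1, hx'.2]
  · rcases ho' with h | h
    · exact Or.inl (by linarith)
    · exact Or.inr (by linarith)

include hP in
/-- the left neighbour of a segment -/
lemma pred {q : ℝ × ZMod L} (hq : q ∈ P) : (q.1 - wid L, q.2 - 1) ∈ P := by
  have hs := sz_ge L
  have hw : wid L = 10 * sz L := rfl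
  -- a point of the hole of `q` is covered by a bump
  have cover : ∀ y, Hole L q.2 y → ∃ r ∈ P, Hole L (r.2 + 1) (q.1 + y - r.1 - wid L) := by
    intro y hy
    obtain ⟨r, ⟨hr, hrs⟩, -⟩ := hP (q.1 + y)
    rcases hrs with hb | hb
    · exfalso
      obtain ⟨a, b⟩ := hole_range L hy
      have hb1 : 0 ≤ q.1 + y - r.1 ∧ q.1 + y - r.1 < wid L := hb.1
      have := seg_near hP hq hr (abs_lt.2 ⟨by linarith [hb1.2], by linarith [hb1.1]⟩)
      subst this
      rw [add_sub_cancel_left] at hb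
      exact hb.2 hy
    · exact ⟨r, hr, hb⟩
  have corner : Hole L q.2 (4 * sz L) :=
    ⟨le_rfl, by linarith [Nat.cast_nonneg (α := ℝ) q.2.val]⟩
  obtain ⟨r, hr, h1, h2⟩ := cover _ corner
  obtain ⟨i1, i2⟩ := hole_range L (⟨h1, h2⟩ : Hole L (r.2 + 1) (q.1 + 4 * sz L - r.1 - wid L))
  -- points of the bump are in the hole
  have inside : ∀ y, Hole L (r.2 + 1) (q.1 + y - r.1 - wid L) → Hole L q.2 y := by
    intro y hy
    by_contra hno
    obtain ⟨y1, y2⟩ := hole_range L hy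
    have e := (hP (q.1 + y)).unique ⟨hr, Or.inr hy⟩
      ⟨hq, Or.inl (by rw [add_sub_cancel_left]; exact ⟨⟨by linarith, by linarith⟩, hno⟩)⟩
    subst e
    linarith
  have e1 : r.1 = q.1 - wid L := by
    have := (inside (r.1 + wid L - q.1 + 4 * sz L)
      ⟨by linarith, by linarith [Nat.cast_nonneg (α := ℝ) (r.2 + 1).val]⟩).1
    linarith
  have e2 : q.2.val ≤ (r.2 + 1).val := by
    by_contra hlt
    push Not at hlt
    have hlt' : ((r.2 + 1).val : ℝ) + 1 ≤ (q.2.val : ℝ) := by exact_mod_cast hlt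
    obtain ⟨y, hy⟩ : ∃ y, y = 4 * sz L + (((r.2 + 1).val : ℝ) + 1) := ⟨_, rfl⟩
    obtain ⟨r', hr', hb⟩ := cover y
      ⟨by linarith [Nat.cast_nonneg (α := ℝ) (r.2 + 1).val], by linarith⟩
    obtain ⟨c1, c2⟩ := hole_range L hb
    have := (hole_range L (⟨by linarith [Nat.cast_nonneg (α := ℝ) (r.2 + 1).val], by linarith⟩ :
      Hole L q.2 y)).2
    have := seg_near hP hr hr' (abs_lt.2 ⟨by linarith, by linarith⟩)
    subst this
    have := hb.2
    linarith
  have e3 : (r.2 + 1).val ≤ q.2.val := by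
    by_contra hlt
    push Not at hlt
    have hlt' : (q.2.val : ℝ) + 1 ≤ ((r.2 + 1).val : ℝ) := by exact_mod_cast hlt
    have := (inside (4 * sz L + ((q.2.val : ℝ) + 1))
      ⟨by linarith [Nat.cast_nonneg (α := ℝ) q.2.val], by linarith⟩).2
    linarith
  have : r = (q.1 - wid L, q.2 - 1) :=
    Prod.ext e1 (eq_sub_of_add_eq (ZMod.val_injective L (le_antisymm e3 e2)))
  exact this ▸ hr

include hP in
lemma down {q : ℝ × ZMod L} (hq : q ∈ P) (i : ℕ) :
    (q.1 - wid L * (i : ℝ), q.2 - (i : ZMod L)) ∈ P := by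
  induction i with
  | zero => convert hq using 1; ext <;> simp
  | succ i ih =>
    convert pred hP ih using 1
    ext <;> simp <;> ring

include hP in
/-- An exact tiling by typed segments is a typed grid. -/
theorem grid :
    ∃ c : ℝ, (∀ q ∈ P, ∃ m : ℤ, q.1 = c + wid L * (m : ℝ) ∧ q.2 = (m : ZMod L)) ∧
      ∀ m : ℤ, (c + wid L * (m : ℝ), (m : ZMod L)) ∈ P := by
  obtain ⟨q, ⟨hq, -⟩, -⟩ := hP 0
  refine ⟨q.1 - wid L * (q.2.val : ℝ), ?_⟩
  have hw := wid_pos L
  have sub : ∀ r ∈ P, ∃ m : ℤ, r.1 = q.1 - wid L * (q.2.val : ℝ) + wid L * (m : ℝ) ∧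
      r.2 = (m : ZMod L) := by
    intro r hr
    obtain ⟨m, hm⟩ : ∃ m : ℤ, m = ⌊(r.1 - q.1) / wid L⌋ := ⟨_, rfl⟩
    have b : |(r.1 - q.1) - wid L * (m : ℝ)| < wid L := by
      rw [show r.1 - q.1 - wid L * (m : ℝ) = wid L * Int.fract ((r.1 - q.1) / wid L) by
        rw [hm, Int.fract, mul_sub, mul_div_cancel₀ _ hw.ne']]
      rw [abs_of_nonneg (mul_nonneg hw.le (Int.fract_nonneg _))]
      nlinarith [Int.fract_lt_one ((r.1 - q.1) / wid L)]
    have hc : ((m.toNat : ℕ) : ℝ) - (((-m).toNat : ℕ) : ℝ) = (m : ℝ) := by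
      have : (m.toNat : ℤ) - ((-m).toNat : ℤ) = m := by omega
      exact_mod_cast this
    have e := seg_near hP (down hP hq (-m).toNat) (down hP hr m.toNat)
      (by convert b using 2; simp only; rw [← hc]; ring)
    obtain ⟨e1, e2⟩ := Prod.mk.inj e
    refine ⟨(q.2.val : ℤ) + m, ?_, ?_⟩
    · push_cast; rw [← hc]; linarith
    · have hz : ((m.toNat : ℕ) : ZMod L) - (((-m).toNat : ℕ) : ZMod L) = (m : ZMod L) := by
        have : (m.toNat : ℤ) - ((-m).toNat : ℤ) = m := by omega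
        have := congrArg (Int.cast : ℤ → ZMod L) this
        push_cast at this
        exact this
      push_cast
      rw [ZMod.natCast_zmod_val, ← hz]
      linear_combination -e2
  refine ⟨sub, fun m => ?_⟩
  obtain ⟨r, ⟨hr, hrs⟩, -⟩ := hP (q.1 - wid L * (q.2.val : ℝ) + wid L * (m : ℝ))
  obtain ⟨n, hn, hn'⟩ := sub r hr
  rw [hn, add_sub_add_left_eq_sub] at hrs
  suffices h : n = m by
    rw [← h, ← hn, ← hn']; exact hr
  have hs := sz_ge L
  have hW : wid L = 10 * sz L := rfl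
  rcases hrs with h | h
  · obtain ⟨⟨a, b⟩, -⟩ := h
    have e1 : (n : ℝ) ≤ (m : ℝ) := by nlinarith
    have e2 : (m : ℝ) < (n : ℝ) + 1 := by nlinarith
    have : n ≤ m := by exact_mod_cast e1
    have : m < n + 1 := by exact_mod_cast e2
    omega
  · obtain ⟨a, b⟩ := hole_range L h
    exfalso
    rcases le_or_gt m (n + 1) with hk | hk
    · have : (m : ℝ) ≤ (n : ℝ) + 1 := by exact_mod_cast hk
      nlinarith
    · have : (n : ℝ) + 1 + 1 ≤ (m : ℝ) := by exact_mod_cast hk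
      nlinarith

omit hP

/-- The typed grid tiles the line exactly. -/
theorem grid_exact (y : ℝ) : ∃! m : ℤ, Seg L (m : ZMod L) (y - wid L * (m : ℝ)) := by
  have hw := wid_pos L
  have hs := sz_ge L
  have hW : wid L = 10 * sz L := rfl
  obtain ⟨f, hf⟩ : ∃ f : ℤ, f = ⌊y / wid L⌋ := ⟨_, rfl⟩
  have inC : 0 ≤ y - wid L * (f : ℝ) ∧ y - wid L * (f : ℝ) < wid L := by
    have e : y - wid L * (f : ℝ) = wid L * Int.fract (y / wid L) := by
      rw [hf, Int.fract, mul_sub, mul_div_cancel₀ _ hw.ne']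
    rw [e]
    exact ⟨mul_nonneg hw.le (Int.fract_nonneg _), by nlinarith [Int.fract_lt_one (y / wid L)]⟩
  have u : ∀ k : ℤ, 0 ≤ y - wid L * (k : ℝ) → y - wid L * (k : ℝ) < wid L → k = f := by
    intro k a b
    rw [hf]; symm
    rw [Int.floor_eq_iff, le_div_iff₀ hw, div_lt_iff₀ hw]
    constructor <;> nlinarith
  have step : ∀ m : ℤ, y - wid L * (m : ℝ) - wid L = y - wid L * ((m + 1 : ℤ) : ℝ) :=
    fun m => by push_cast; ring
  have classify : ∀ m : ℤ, Seg L (m : ZMod L) (y - wid L * (m : ℝ)) →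
      (m = f ∧ ¬ Hole L (f : ZMod L) (y - wid L * (f : ℝ))) ∨
      (m = f - 1 ∧ Hole L (f : ZMod L) (y - wid L * (f : ℝ))) := by
    intro m hm
    rcases hm with ⟨⟨h1, h2⟩, hX⟩ | h
    · have e := u m h1 h2
      subst e; exact Or.inl ⟨rfl, hX⟩
    · rw [step] at h
      obtain ⟨a, b⟩ := hole_range L h
      have e := u (m + 1) (by linarith) (by linarith)
      refine Or.inr ⟨eq_sub_of_add_eq e, ?_⟩
      rw [← e]; convert h using 1
      simp
  refine existsUnique_of_exists_of_unique ?_ ?_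
  · by_cases hX : Hole L (f : ZMod L) (y - wid L * (f : ℝ))
    · refine ⟨f - 1, Or.inr ?_⟩
      rw [step, sub_add_cancel]
      simpa using hX
    exact ⟨f, Or.inl ⟨inC, hX⟩⟩
  · intro m n hm hn
    rcases classify m hm with ⟨rfl, a⟩ | ⟨rfl, a⟩ <;>
      rcases classify n hn with ⟨rfl, b⟩ | ⟨rfl, b⟩ <;>
      first | rfl | (exfalso; tauto)

end Vale.Agent.P043.R2
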